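import Mathlib

/-!
The dose game. Elements of `Z` have weight `exp (- dose)`, the others weight `exp (- lam)`.
`Good` says that no dose vector makes a set cheap, `Valid` is a minimal good set, and
`class_close` says that two valid sets with a common grid optimum almost coincide.
-/

namespace Vale.Agent.P034.Dose

open Finset

variable {α : Type*} [Fintype α] [DecidableEq α]

/-- Effective dose: the dose on `Z`, `lam` elsewhere. -/
noncomputable def ew (lam : ℕ) (Z : Finset α) (s : α → ℝ) (x : α) : ℝ :=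
  if x ∈ Z then s x else (lam : ℝ)

/-- The weighted count under doses. -/
noncomputable def fval (g : Finset α → ℝ) (lam : ℕ) (Z : Finset α) (s : α → ℝ) : ℝ :=
  ∑ S : Finset α, g S * Real.exp (-∑ x ∈ S, ew lam Z s x)

/-- The marginal of `x` under doses. -/
noncomputable def marg (g : Finset α → ℝ) (lam : ℕ) (Z : Finset α) (s : α → ℝ) (x : α) : ℝ :=
  ∑ S ∈ univ.filter (fun S : Finset α => x ∈ S), g S * Real.exp (-∑ y ∈ S, ew lam Z s y)

/-- Admissible doses on the coordinates `A`. -/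
def IsDose (lam : ℕ) (A : Finset α) (s : α → ℝ) : Prop :=
  ∀ x, 0 ≤ s x ∧ s x ≤ lam ∧ (x ∉ A → s x = 0)

/-- `V` is good in `Z`: at some price no dose off `V` brings the value below the line. -/
def Good (g : Finset α → ℝ) (lam : ℕ) (v : ℝ) (Z V : Finset α) : Prop :=
  ∃ τ : ℝ, 0 < τ ∧ ∀ s : α → ℝ, IsDose lam (Z \ V) s →
    v + 2 * lam * τ * V.card ≤ fval g lam Z s + τ * ∑ x, s x

/-- A nonempty good set none of whose proper subsets is good. -/
def Valid (g : Finset α → ℝ) (lam : ℕ) (v : ℝ) (Z U : Finset α) : Prop :=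
  U ⊆ Z ∧ U.Nonempty ∧ Good g lam v Z U ∧
    ∀ P : Finset α, P ⊂ U → ¬ Good g lam v (Z \ (U \ P)) P

variable {g : Finset α → ℝ} {lam : ℕ} {v : ℝ}

lemma good_mono (hg : ∀ S, 0 ≤ g S) {Z Z' V : Finset α} (hZ : Z ⊆ Z')
    (h : Good g lam v Z V) : Good g lam v Z' V := by
  obtain ⟨τ, hτ, h⟩ := h
  refine ⟨τ, hτ, fun s hs => ?_⟩
  set s' : α → ℝ := fun x => if x ∈ Z then s x else 0 with hs'
  have hs'd : IsDose lam (Z \ V) s' := by
    intro x
    by_cases hx : x ∈ Z
    · refine ⟨?_, ?_, fun hx2 => ?_⟩ <;> simp only [hs', if_pos hx]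
      · exact (hs x).1
      · exact (hs x).2.1
      · refine (hs x).2.2 fun hx3 => hx2 ?_
        exact mem_sdiff.2 ⟨hx, (mem_sdiff.1 hx3).2⟩
    · simp [hs', hx]
  refine (h s' hs'd).trans (add_le_add ?_ (mul_le_mul_of_nonneg_left ?_ hτ.le))
  · refine sum_le_sum fun S _ => mul_le_mul_of_nonneg_left (Real.exp_le_exp.2 ?_) (hg S)
    refine neg_le_neg (sum_le_sum fun x _ => ?_)
    simp only [ew]
    by_cases hx : x ∈ Z
    · simp [hx, hZ hx, hs']
    · by_cases hx' : x ∈ Z'
      · simp [hx, hx', (hs x).2.1]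
      · simp [hx, hx']
  · refine sum_le_sum fun x _ => ?_
    by_cases hx : x ∈ Z <;> simp [hs', hx, (hs x).1]

/-- Tangent inequality. -/
lemma fval_tangent (hg : ∀ S, 0 ≤ g S) (Z : Finset α) (s Y : α → ℝ)
    (hout : ∀ x, x ∉ Z → Y x = s x) :
    fval g lam Z s - ∑ x, marg g lam Z s x * (Y x - s x) ≤ fval g lam Z Y := by
  have hx : ∑ x, marg g lam Z s x * (Y x - s x)
      = ∑ S : Finset α, (g S * Real.exp (-∑ y ∈ S, ew lam Z s y)) * ∑ x ∈ S, (Y x - s x) := by
    simp only [marg, Finset.sum_mul, Finset.mul_sum]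
    rw [Finset.sum_comm' (t' := (univ : Finset (Finset α))) (s' := fun S => S)]
    intro x S
    simp
  rw [hx, fval, fval, ← Finset.sum_sub_distrib]
  refine sum_le_sum fun S _ => ?_
  have hd : ∑ x ∈ S, (Y x - s x) = ∑ x ∈ S, ew lam Z Y x - ∑ x ∈ S, ew lam Z s x := by
    rw [← Finset.sum_sub_distrib]
    refine sum_congr rfl fun x _ => ?_
    by_cases hx : x ∈ Z
    · simp [ew, hx]
    · simp [ew, hx, hout x hx]
  rw [hd]
  set A := ∑ x ∈ S, ew lam Z Y x
  set B := ∑ x ∈ S, ew lam Z s x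
  have h1 := Real.add_one_le_exp (-(A - B))
  have h2 : Real.exp (-A) = Real.exp (-B) * Real.exp (-(A - B)) := by
    rw [← Real.exp_add]; congr 1; ring
  rw [h2]
  have h3 := mul_le_mul_of_nonneg_left h1 (mul_nonneg (hg S) (Real.exp_pos (-B)).le)
  linarith [h3, mul_assoc (g S) (Real.exp (-B)) (Real.exp (-(A - B)))]

/-- Effect of moving one coordinate. -/
lemma fval_update (Z : Finset α) (s : α → ℝ) {x : α} (hx : x ∈ Z) (h : ℝ) :
    fval g lam Z (Function.update s x (s x + h))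
      = fval g lam Z s + (Real.exp (-h) - 1) * marg g lam Z s x := by
  simp only [fval, marg, Finset.mul_sum, Finset.sum_filter, ← Finset.sum_add_distrib]
  refine sum_congr rfl fun S _ => ?_
  by_cases hS : x ∈ S
  · rw [if_pos hS]
    have h1 : ∑ y ∈ S, ew lam Z (Function.update s x (s x + h)) y
        = ∑ y ∈ S, ew lam Z s y + h := by
      have : ∀ y, ew lam Z (Function.update s x (s x + h)) y
          = ew lam Z s y + if y = x then h else 0 := by
        intro y
        by_cases hy : y = x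
        · subst hy; simp [ew, hx]
        · simp [ew, hy]
      simp only [this, sum_add_distrib, sum_ite_eq', hS, if_true]
    rw [h1, neg_add, Real.exp_add]
    ring
  · rw [if_neg hS, mul_zero, add_zero]
    have : ∑ y ∈ S, ew lam Z (Function.update s x (s x + h)) y = ∑ y ∈ S, ew lam Z s y := by
      refine sum_congr rfl fun y hy => ?_
      have : y ≠ x := fun e => hS (e ▸ hy)
      simp [ew, this]
    rw [this]

/-- Grid dose vector. -/
noncomputable def gdose (M : ℕ) (n : α → ℕ) (x : α) : ℝ := (n x : ℝ) / M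

/-- Grid points with coordinates `A`. -/
def IsGrid (lam M : ℕ) (A : Finset α) (n : α → ℕ) : Prop :=
  ∀ x, n x ≤ lam * M ∧ (x ∉ A → n x = 0)

lemma isDose_gdose {lam M : ℕ} (hM : 0 < M) {A : Finset α} {n : α → ℕ}
    (hn : IsGrid lam M A n) : IsDose lam A (gdose M n) := by
  intro x
  have hM' : (0 : ℝ) < M := by exact_mod_cast hM
  refine ⟨by unfold gdose; positivity, ?_, fun hx => by simp [gdose, (hn x).2 hx]⟩
  rw [gdose, div_le_iff₀ hM']
  exact_mod_cast (hn x).1

/-- `n` is a grid optimum for `U` in `Z` at the critical price `κ`. -/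
def IsOpt (g : Finset α → ℝ) (lam : ℕ) (v : ℝ) (Z U : Finset α) (M : ℕ) (κ : ℝ)
    (n : α → ℕ) : Prop :=
  0 < κ ∧ IsGrid lam M (Z \ U) n ∧ ∑ x, gdose M n x < 2 * lam * U.card ∧
    fval g lam Z (gdose M n) + κ * ∑ x, gdose M n x = v + 2 * lam * κ * U.card ∧
    ∀ n' : α → ℕ, IsGrid lam M (Z \ U) n' →
      v + 2 * lam * κ * U.card ≤ fval g lam Z (gdose M n') + κ * ∑ x, gdose M n' x

lemma exists_isOpt (hlam : 1 ≤ lam) {Z U : Finset α} (hU : U.Nonempty)
    (hgood : Good g lam v Z U) {M : ℕ} (hM : 0 < M) :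
    ∃ κ n, IsOpt g lam v Z U M κ n := by
  classical
  obtain ⟨τ, hτ, hg⟩ := hgood
  set K : Finset (α → ℕ) := (Fintype.piFinset fun _ : α => range (lam * M + 1)).filter
    (fun n => IsGrid lam M (Z \ U) n ∧ ∑ x, gdose M n x < 2 * lam * U.card) with hK
  have hmem : ∀ n, n ∈ K ↔
      IsGrid lam M (Z \ U) n ∧ ∑ x, gdose M n x < 2 * lam * U.card := by
    intro n
    simp only [hK, mem_filter, Fintype.mem_piFinset, mem_range]
    exact ⟨fun h => h.2, fun h => ⟨fun x => Nat.lt_succ_of_le (h.1 x).1, h⟩⟩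
  have hk : (0 : ℝ) < 2 * lam * U.card := by
    have h1 : (1 : ℝ) ≤ lam := by exact_mod_cast hlam
    have h2 : (0 : ℝ) < U.card := by exact_mod_cast hU.card_pos
    positivity
  have hne : K.Nonempty := ⟨fun _ => 0, (hmem _).2
    ⟨fun x => ⟨Nat.zero_le _, fun _ => rfl⟩, by simpa [gdose] using hk⟩⟩
  obtain ⟨n, hn, hmin⟩ := K.exists_min_image
    (fun n => (fval g lam Z (gdose M n) - v) / (2 * lam * U.card - ∑ x, gdose M n x)) hne
  obtain ⟨hgrid, hlt⟩ := (hmem n).1 hn
  have hden : 0 < 2 * (lam : ℝ) * U.card - ∑ x, gdose M n x := by linarith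
  set κ := (fval g lam Z (gdose M n) - v) / (2 * lam * U.card - ∑ x, gdose M n x) with hκ
  have hτκ : τ ≤ κ := by
    rw [hκ, le_div_iff₀ hden]
    nlinarith [hg _ (isDose_gdose hM hgrid)]
  refine ⟨κ, n, hτ.trans_le hτκ, hgrid, hlt, ?_, fun n' hn' => ?_⟩
  · have := div_mul_cancel₀ (fval g lam Z (gdose M n) - v) hden.ne'
    rw [← hκ] at this
    linarith
  · by_cases h' : ∑ x, gdose M n' x < 2 * lam * U.card
    · have h2 := hmin n' ((hmem n').2 ⟨hn', h'⟩)
      rw [le_div_iff₀ (by linarith)] at h2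
      nlinarith
    · nlinarith [hg _ (isDose_gdose hM hn'), mul_nonneg (sub_nonneg.2 hτκ)
        (sub_nonneg.2 (not_lt.1 h'))]

lemma serve_eq {Z Uj Ul : Finset α} {M : ℕ} {κj κl : ℝ} {nj nl : α → ℕ}
    (hj : IsOpt g lam v Z Uj M κj nj) (hl : IsOpt g lam v Z Ul M κl nl)
    (hk : Uj.card = Ul.card) (hle : κj ≤ κl) (hfree : ∀ x ∈ Ul, nj x = 0) :
    κl = κj ∧ IsOpt g lam v Z Ul M κj nj := by
  obtain ⟨hpos, hgrid, hlt, heq, _⟩ := hj
  obtain ⟨_, _, _, _, hall⟩ := hl
  have hgrid' : IsGrid lam M (Z \ Ul) nj := by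
    intro x
    refine ⟨(hgrid x).1, fun hx => ?_⟩
    by_cases hxU : x ∈ Ul
    · exact hfree x hxU
    · exact (hgrid x).2 fun h => hx (mem_sdiff.2 ⟨(mem_sdiff.1 h).1, hxU⟩)
  have h := hall nj hgrid'
  rw [hk] at hlt heq
  have hκ : κl = κj := by
    refine le_antisymm (not_lt.1 fun hlt' => ?_) hle
    nlinarith [mul_pos (sub_pos.2 hlt') (sub_pos.2 hlt)]
  exact ⟨hκ, hpos, hgrid', hlt, heq, hκ ▸ hall⟩

lemma step_up {u : ℝ} (hu : 0 ≤ u) : u ≤ (1 + u) * (1 - Real.exp (-u)) := by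
  have h1 := Real.add_one_le_exp u
  have h2 : (1 + u) * Real.exp (-u) ≤ 1 := by
    calc (1 + u) * Real.exp (-u) ≤ Real.exp u * Real.exp (-u) :=
          mul_le_mul_of_nonneg_right (by linarith) (Real.exp_pos _).le
      _ = 1 := by rw [← Real.exp_add, add_neg_cancel, Real.exp_zero]
  nlinarith

lemma step_down (u : ℝ) : (1 - u) * (Real.exp u - 1) ≤ u := by
  have h1 : (1 - u) * Real.exp u ≤ 1 := by
    calc (1 - u) * Real.exp u ≤ Real.exp (-u) * Real.exp u :=
          mul_le_mul_of_nonneg_right (by linarith [Real.add_one_le_exp (-u)]) (Real.exp_pos _).le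
      _ = 1 := by rw [← Real.exp_add, neg_add_cancel, Real.exp_zero]
  nlinarith

lemma sum_update_gdose (M : ℕ) (n : α → ℕ) (x : α) (m : ℕ) :
    ∑ y, gdose M (Function.update n x m) y
      = ∑ y, gdose M n y + ((m : ℝ) - n x) / M := by
  have : ∀ y, gdose M (Function.update n x m) y
      = gdose M n y + if y = x then ((m : ℝ) - n x) / M else 0 := by
    intro y
    by_cases hy : y = x
    · subst hy; simp [gdose]; ring
    · simp [gdose, hy]
  simp only [this, sum_add_distrib, sum_ite_eq', mem_univ, if_true]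

lemma gdose_update (M : ℕ) (n : α → ℕ) (x : α) (m : ℕ) :
    gdose M (Function.update n x m)
      = Function.update (gdose M n) x (gdose M n x + ((m : ℝ) - n x) / M) := by
  funext y
  by_cases hy : y = x
  · subst hy; simp [gdose]; ring
  · simp [gdose, hy]

lemma marg_le {Z U : Finset α} {M : ℕ} {κ : ℝ} {n : α → ℕ} (hM : 0 < M)
    (h : IsOpt g lam v Z U M κ n) {x : α} (hx : x ∈ Z \ U) (hlt : n x < lam * M) :
    marg g lam Z (gdose M n) x ≤ κ * (1 + 1 / (M : ℝ)) := by
  obtain ⟨hpos, hgrid, _, heq, hall⟩ := h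
  have hu : (0 : ℝ) < 1 / M := by positivity
  have hg' : IsGrid lam M (Z \ U) (Function.update n x (n x + 1)) := by
    intro y
    by_cases hy : y = x
    · subst hy; simp [hlt, hx, Nat.succ_le_of_lt]
    · simpa [hy] using hgrid y
  have h2 := hall _ hg'
  rw [sum_update_gdose, gdose_update, fval_update Z _ (mem_sdiff.1 hx).1] at h2
  simp only [Nat.cast_add, Nat.cast_one, add_sub_cancel_left] at h2
  have hpos' : 0 < 1 - Real.exp (-(1 / (M : ℝ))) :=
    sub_pos.2 (Real.exp_lt_one_iff.2 (by linarith))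
  refine le_of_mul_le_mul_right ?_ hpos'
  nlinarith [mul_le_mul_of_nonneg_left (step_up hu.le) hpos.le]

lemma le_marg {Z U : Finset α} {M : ℕ} {κ : ℝ} {n : α → ℕ} (hM : 0 < M)
    (h : IsOpt g lam v Z U M κ n) {x : α} (hlt : 0 < n x) :
    κ * (1 - 1 / (M : ℝ)) ≤ marg g lam Z (gdose M n) x := by
  obtain ⟨hpos, hgrid, _, heq, hall⟩ := h
  have hu : (0 : ℝ) < 1 / M := by positivity
  have hx : x ∈ Z \ U := by
    by_contra hx
    exact absurd ((hgrid x).2 hx) hlt.ne'
  have hg' : IsGrid lam M (Z \ U) (Function.update n x (n x - 1)) := by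
    intro y
    by_cases hy : y = x
    · subst hy
      simp only [Function.update_self]
      exact ⟨(Nat.sub_le _ _).trans (hgrid y).1, fun h => absurd hx h⟩
    · simpa [hy] using hgrid y
  have h2 := hall _ hg'
  rw [sum_update_gdose, gdose_update, fval_update Z _ (mem_sdiff.1 hx).1] at h2
  have hc : (((n x - 1 : ℕ) : ℝ) - n x) / M = -(1 / (M : ℝ)) := by
    rw [Nat.cast_sub hlt]; push_cast; ring
  rw [hc, neg_neg] at h2
  have hpos' : 0 < Real.exp (1 / (M : ℝ)) - 1 := sub_pos.2 (Real.one_lt_exp_iff.2 hu)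
  refine le_of_mul_le_mul_right ?_ hpos'
  nlinarith [mul_le_mul_of_nonneg_left (step_down (1 / (M : ℝ))) hpos.le]

/-- Two valid sets with a common grid optimum differ in fewer than `4 k / M` elements. -/
theorem class_close (hg : ∀ S, 0 ≤ g S) (hlam : 1 ≤ lam) {Z Uj Ul : Finset α} {M : ℕ}
    (hM : 0 < M) {κ : ℝ} {n : α → ℕ} (hvj : Valid g lam v Z Uj) (hvl : Valid g lam v Z Ul)
    (hj : IsOpt g lam v Z Uj M κ n) (hl : IsOpt g lam v Z Ul M κ n) :
    (((Uj \ Ul).card : ℕ) : ℝ) * M < 4 * (Uj.card : ℝ) := by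
  classical
  have hM' : (0 : ℝ) < M := by exact_mod_cast hM
  set D := Uj \ Ul with hD
  set P := Uj ∩ Ul with hP
  have hk0 : (0 : ℝ) < Uj.card := by exact_mod_cast hvj.2.1.card_pos
  rcases D.eq_empty_or_nonempty with hDe | hDne
  · rw [hDe]; simpa using hvj.2.1.card_pos
  have hPss : P ⊂ Uj := by
    obtain ⟨y, hy⟩ := hDne
    refine (ssubset_iff_of_subset inter_subset_left).2 ⟨y, (mem_sdiff.1 hy).1, fun h => ?_⟩
    exact (mem_sdiff.1 hy).2 (mem_inter.1 h).2
  have hUP : Uj \ P = D := by ext y; simp [hP, hD]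
  have hng := hvj.2.2.2 P hPss
  rw [hUP] at hng
  set u : ℝ := 1 / M with hu
  have hu0 : 0 < u := by positivity
  have hu1 : u ≤ 1 := by
    rw [hu, div_le_one hM']; exact_mod_cast hM
  set κ' := κ * (1 + u) with hκ'
  have hκ'pos : 0 < κ' := mul_pos hj.1 (by linarith)
  simp only [Good, not_exists, not_and, not_forall, not_le] at hng
  obtain ⟨s', hs', hcheap⟩ := hng κ' hκ'pos
  set Y : α → ℝ := fun x => if x ∈ D then (lam : ℝ) else s' x with hY
  set s := gdose M n with hs
  have hsd := isDose_gdose (A := Z \ Uj) hM hj.2.1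
  have hsd' := isDose_gdose (A := Z \ Ul) hM hl.2.1
  have hDZ : D ⊆ Z := fun x hx => hvj.1 (mem_sdiff.1 hx).1
  have hout : ∀ x, x ∉ Z → Y x = s x := by
    intro x hx
    rw [hY]
    simp only [if_neg (fun h => hx (hDZ h))]
    rw [(hs' x).2.2 (fun h => hx (mem_sdiff.1 (mem_sdiff.1 h).1).1),
      hs, (hsd x).2.2 (fun h => hx (mem_sdiff.1 h).1)]
  have hfY : fval g lam Z Y = fval g lam (Z \ D) s' := by
    refine sum_congr rfl fun S _ => ?_
    congr 2
    refine congrArg Neg.neg (sum_congr rfl fun x _ => ?_)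
    by_cases hx : x ∈ D
    · simp [ew, hY, hx, hDZ hx]
    · simp [ew, hY, hx]
  have hSY : ∑ x, Y x = ∑ x, s' x + (lam : ℝ) * D.card := by
    have : ∀ x, Y x = s' x + if x ∈ D then (lam : ℝ) else 0 := by
      intro x
      by_cases hx : x ∈ D
      · simp [hY, hx, (hs' x).2.2 (fun h => (mem_sdiff.1 (mem_sdiff.1 h).1).2 hx)]
      · simp [hY, hx]
    simp only [this, sum_add_distrib]
    rw [sum_ite_mem, univ_inter, sum_const, nsmul_eq_mul, mul_comm]
  have hYb : ∀ x, 0 ≤ Y x ∧ Y x ≤ lam := by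
    intro x
    by_cases hx : x ∈ D
    · simp [hY, hx]
    · simpa [hY, hx] using ⟨(hs' x).1, (hs' x).2.1⟩
  have hterm : ∀ x, κ * (1 - u) * s x
      ≤ κ' * Y x - marg g lam Z s x * (Y x - s x) := by
    intro x
    obtain ⟨hY0, hY1⟩ := hYb x
    obtain ⟨hs0, hs1, -⟩ := hsd x
    rcases lt_trichotomy (s x) (Y x) with h | h | h
    · have hlt : n x < lam * M := by
        have : s x < lam := h.trans_le hY1
        rw [hs, gdose, div_lt_iff₀ hM'] at this
        exact_mod_cast this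
      have hxc : x ∈ Z \ Uj ∨ x ∈ Z \ Ul := by
        have hxZ : x ∈ Z := by
          by_contra hx
          exact absurd (hout x hx) h.ne'
        by_cases hxj : x ∈ Uj
        · refine Or.inr (mem_sdiff.2 ⟨hxZ, fun hxl => ?_⟩)
          have hxD : x ∉ D := fun hh => (mem_sdiff.1 hh).2 hxl
          have : Y x = 0 := by
            simp only [hY, if_neg hxD]
            exact (hs' x).2.2 fun hh => (mem_sdiff.1 hh).2 (mem_inter.2 ⟨hxj, hxl⟩)
          linarith
        · exact Or.inl (mem_sdiff.2 ⟨hxZ, hxj⟩)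
      have hm : marg g lam Z s x ≤ κ' := by
        rcases hxc with hx | hx
        · exact marg_le hM hj hx hlt
        · exact marg_le hM hl hx hlt
      nlinarith [mul_le_mul_of_nonneg_right hm (sub_nonneg.2 h.le),
        mul_nonneg hj.1.le (mul_nonneg hu0.le hs0)]
    · rw [← h]
      nlinarith [mul_nonneg hj.1.le (mul_nonneg hu0.le hs0)]
    · have hlt : 0 < n x := by
        rcases Nat.eq_zero_or_pos (n x) with h0 | h0
        · simp [hs, gdose, h0] at h; linarith
        · exact h0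
      nlinarith [mul_le_mul_of_nonneg_right (le_marg hM hj hlt) (sub_nonneg.2 h.le),
        mul_nonneg hj.1.le (mul_nonneg hu0.le hY0)]
  have htan := fval_tangent (lam := lam) hg Z s Y hout
  have hsum : κ * (1 - u) * ∑ x, s x
      ≤ κ' * ∑ x, Y x - ∑ x, marg g lam Z s x * (Y x - s x) := by
    rw [mul_sum, mul_sum, ← sum_sub_distrib]
    exact sum_le_sum fun x _ => hterm x
  have hPD : (P.card : ℝ) + D.card = Uj.card := by
    have h := card_sdiff_add_card_inter Uj Ul
    rw [← hD, ← hP] at h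
    exact_mod_cast (by omega : P.card + D.card = Uj.card)
  have hlamr : (1 : ℝ) ≤ lam := by exact_mod_cast hlam
  obtain ⟨hκ, -, hlt, heq, -⟩ := hj
  rw [hfY, hSY] at *
  rw [← hs] at hlt heq
  -- combine the two bounds
  have h1 : v + 2 * lam * κ * Uj.card - κ * u * (2 * lam * Uj.card)
      < v + 2 * lam * κ' * P.card + κ' * (lam * D.card) := by
    nlinarith [mul_le_mul_of_nonneg_left hlt.le (mul_nonneg hκ.le hu0.le)]
  have h2 : (lam : ℝ) * κ * ((1 + u) * D.card) < lam * κ * (4 * u * Uj.card) := by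
    rw [hκ'] at h1
    have hP' : (P.card : ℝ) = Uj.card - D.card := by linarith
    rw [hP'] at h1
    linarith [h1]
  have h3 := lt_of_mul_lt_mul_left h2 (by positivity)
  have h4 : u * M = 1 := by rw [hu]; field_simp
  nlinarith [mul_lt_mul_of_pos_right h3 hM']

end Vale.Agent.P034.Dose
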