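import Vale.Agent.P034.Dose.Skew
import Vale.Agent.P034.Dose.Game

/-!
At most `exp (k (α + β))` valid sets of size `k` lie in a given `Z`, where `α` is a constant
times `log lam` plus a constant and `β` is a constant.
-/

namespace Vale.Agent.P034.Dose

open Finset

/-- The potential for counting valid sets with `x` free elements. -/
noncomputable def phi (al be k x : ℝ) : ℝ :=
  x * (al + be * (1 + Real.log k - Real.log x))

lemma phi_mono {al be k y x : ℝ} (hal : 0 ≤ al) (hbe : 0 ≤ be) (hy : 0 ≤ y) (hyx : y ≤ x)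
    (hxk : x ≤ k) : phi al be k y ≤ phi al be k x := by
  rcases (hy.trans hyx).eq_or_lt with hx | hx
  · have : y = 0 := le_antisymm (hx.symm ▸ hyx) hy
    simp [← hx, this]
  have hlog : 0 ≤ Real.log k - Real.log x := sub_nonneg.2 (Real.log_le_log hx hxk)
  rcases hy.eq_or_lt with hy0 | hy0
  · have h1 : 0 ≤ x * (al + be * (1 + Real.log k - Real.log x)) :=
      mul_nonneg hx.le (add_nonneg hal (mul_nonneg hbe (by linarith)))
    simpa [phi, ← hy0] using h1
  have h1 : y * (Real.log x - Real.log y) ≤ x - y := by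
    have h := Real.log_le_sub_one_of_pos (div_pos hx hy0)
    rw [Real.log_div hx.ne' hy0.ne', le_sub_iff_add_le, le_div_iff₀ hy0] at h
    linarith
  have h2 := mul_le_mul_of_nonneg_left h1 hbe
  have h3 := mul_nonneg (mul_nonneg (sub_nonneg.2 hyx) hbe) hlog
  have h4 := mul_nonneg (sub_nonneg.2 hyx) hal
  simp only [phi]
  nlinarith [h2, h3, h4]

lemma phi_step {D lam k s al be : ℝ} (hD : 1 < D) (hlam : 1 ≤ lam) (hs : 1 ≤ s) (hsk : s ≤ k)
    (hbe : be = 2 * D / (D - 1))
    (hal : al = D / (D - 1) * (Real.log lam + (1 + Real.log (11 * D) + Real.log 2)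
      + be * Real.log D / D))
    {b : ℝ} (hb0 : 0 ≤ b) (hb : b ≤ 2 * lam * k * (4 * D * k / s + 1)) :
    s * (1 + Real.log (1 + b / s)) + s * Real.log 2 + phi al be k (s / D) ≤ phi al be k s := by
  have hs0 : 0 < s := by linarith
  have hk0 : 0 < k := by linarith
  have hD0 : 0 < D := by linarith
  have hD1 : D - 1 ≠ 0 := by linarith
  have hks : 1 ≤ k / s := (one_le_div hs0).2 hsk
  have hl : 1 + b / s ≤ 11 * D * lam * (k / s) ^ 2 := by
    have h1 : 1 ≤ D * k / s := by
      rw [le_div_iff₀ hs0]; nlinarith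
    have h2 : b ≤ 10 * D * lam * k * (k / s) := by
      refine hb.trans ?_
      have : 2 * lam * k * (4 * D * k / s + 1) ≤ 2 * lam * k * (5 * (D * k / s)) :=
        mul_le_mul_of_nonneg_left (by linarith [show 4 * D * k / s = 4 * (D * k / s) by ring])
          (by positivity)
      refine this.trans (le_of_eq ?_); ring
    have h3 : b / s ≤ 10 * D * lam * (k / s) ^ 2 := by
      refine (div_le_div_of_nonneg_right h2 hs0.le).trans (le_of_eq ?_); ring
    have h4 : (1 : ℝ) ≤ D * lam * (k / s) ^ 2 :=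
      one_le_mul_of_one_le_of_one_le (one_le_mul_of_one_le_of_one_le hD.le hlam)
        (one_le_pow₀ hks)
    linarith
  have hlog : Real.log (1 + b / s)
      ≤ Real.log (11 * D) + Real.log lam + 2 * (Real.log k - Real.log s) := by
    refine (Real.log_le_log (by positivity) hl).trans (le_of_eq ?_)
    rw [Real.log_mul (by positivity) (by positivity), Real.log_mul (by positivity) (by positivity),
      Real.log_pow, Real.log_div hk0.ne' hs0.ne']
    push_cast; ring
  have hid : phi al be k s - phi al be k (s / D)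
      = s * (Real.log lam + (1 + Real.log (11 * D) + Real.log 2) + 2
        + 2 * (Real.log k - Real.log s)) := by
    simp only [phi, Real.log_div hs0.ne' hD0.ne', hal, hbe]
    field_simp
    ring
  nlinarith [mul_le_mul_of_nonneg_left hlog hs0.le]

variable {α : Type*} [Fintype α] [DecidableEq α] {g : Finset α → ℝ} {lam : ℕ} {v : ℝ}

theorem count_aux (hg : ∀ S, 0 ≤ g S) (hlam : 1 ≤ lam) (Z : Finset α) (k : ℕ) {D al be : ℝ}
    (hD : 1 < D) (hbe : be = 2 * D / (D - 1))
    (hal : al = D / (D - 1) * (Real.log lam + (1 + Real.log (11 * D) + Real.log 2)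
      + be * Real.log D / D)) (s : ℕ) :
    ∀ (T : Finset α) (𝒰 : Finset (Finset α)),
      (∀ U ∈ 𝒰, Valid g lam v Z U ∧ U.card = k ∧ T ⊆ U) → T.card + s = k →
      (𝒰.card : ℝ) ≤ Real.exp (phi al be k s) := by
  classical
  induction s using Nat.strong_induction_on with
  | _ s ih =>
  intro T 𝒰 h𝒰 hTs
  rcases Nat.eq_zero_or_pos s with rfl | hs
  · have : 𝒰.card ≤ 1 := card_le_one.2 fun a ha b hb => by
      have ha' := eq_of_subset_of_card_le (h𝒰 a ha).2.2 (by have := (h𝒰 a ha).2.1; omega)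
      have hb' := eq_of_subset_of_card_le (h𝒰 b hb).2.2 (by have := (h𝒰 b hb).2.1; omega)
      rw [← ha', ← hb']
    simpa [phi] using (Nat.cast_le (α := ℝ)).2 this
  have hsr : (1 : ℝ) ≤ s := by exact_mod_cast hs
  have hs0 : (0 : ℝ) < s := by linarith
  have hsk : (s : ℝ) ≤ k := by exact_mod_cast (by omega : s ≤ k)
  have hk0 : (0 : ℝ) < k := by linarith
  have hD0 : (0 : ℝ) < D := by linarith
  have hlr : (1 : ℝ) ≤ lam := by exact_mod_cast hlam
  have hbe0 : 0 ≤ be := by rw [hbe]; exact div_nonneg (by linarith) (by linarith)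
  have hal0 : 0 ≤ al := by
    rw [hal]
    have := Real.log_nonneg hlr
    have := Real.log_nonneg (show (1 : ℝ) ≤ 11 * D by linarith)
    have := Real.log_nonneg (show (1 : ℝ) ≤ 2 by norm_num)
    have := div_nonneg (mul_nonneg hbe0 (Real.log_nonneg hD.le)) hD0.le
    exact mul_nonneg (div_nonneg hD0.le (by linarith)) (by linarith)
  set M : ℕ := ⌈4 * D * k / s⌉₊ with hMdef
  have hM1 : 4 * D * (k : ℝ) / s ≤ M := Nat.le_ceil _
  have hM2 : (M : ℝ) ≤ 4 * D * k / s + 1 := (Nat.ceil_lt_add_one (by positivity)).le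
  have hM : 0 < M := Nat.ceil_pos.2 (by positivity)
  have hex : ∀ U : Finset α, ∃ κn : ℝ × (α → ℕ),
      U ∈ 𝒰 → IsOpt g lam v Z U M κn.1 κn.2 := by
    intro U
    by_cases hU : U ∈ 𝒰
    · obtain ⟨hv, -, -⟩ := h𝒰 U hU
      obtain ⟨κ, n, h⟩ := exists_isOpt hlam hv.2.1 hv.2.2.1 hM
      exact ⟨(κ, n), fun _ => h⟩
    · exact ⟨(0, fun _ => 0), fun h => absurd h hU⟩
  choose κn hκn using hex
  set A : Finset α → Finset α := fun U => U \ T with hA
  set B : Finset α → Finset α := fun U => univ.filter fun x => (κn U).2 x ≠ 0 with hB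
  set b : ℕ := 2 * lam * k * M with hb
  have hzero : ∀ U ∈ 𝒰, ∀ x ∈ U, (κn U).2 x = 0 := fun U hU x hx =>
    ((hκn U hU).2.1 x).2 fun h => (mem_sdiff.1 h).2 hx
  have hdisj : ∀ U ∈ 𝒰, Disjoint (A U) (B U) := fun U hU => disjoint_left.2 fun x hx hx' =>
    (mem_filter.1 hx').2 (hzero U hU x (mem_sdiff.1 hx).1)
  obtain ⟨R, hR1, hR2, hR3⟩ := exists_served_list (fun U => (κn U).1) A B 𝒰 hdisj
  have hAc : ∀ U ∈ R, (A U).card = s := by
    intro U hU
    obtain ⟨-, hc, hT⟩ := h𝒰 U (hR1 U hU)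
    rw [hA, card_sdiff_of_subset hT]; omega
  have hBc : ∀ U ∈ R, (B U).card ≤ b := by
    intro U hU
    obtain ⟨-, -, hlt, -⟩ := hκn U (hR1 U hU)
    have hsum : ((∑ x, (κn U).2 x : ℕ) : ℝ) < (b : ℝ) := by
      have : ∑ x, gdose M (κn U).2 x = ((∑ x, (κn U).2 x : ℕ) : ℝ) / M := by
        simp [gdose, Finset.sum_div]
      rw [this, div_lt_iff₀ (by exact_mod_cast hM), (h𝒰 U (hR1 U hU)).2.1] at hlt
      simpa [hb] using hlt
    calc (B U).card = ∑ x ∈ B U, 1 := card_eq_sum_ones _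
      _ ≤ ∑ x ∈ B U, (κn U).2 x :=
          sum_le_sum fun x hx => Nat.one_le_iff_ne_zero.2 (mem_filter.1 hx).2
      _ ≤ ∑ x, (κn U).2 x := sum_le_sum_of_subset (subset_univ _)
      _ ≤ b := (Nat.cast_lt.1 hsum).le
  have hlen := skew_list_bound R A B hAc hBc (fun U hU => hdisj U (hR1 U hU)) hR2
  have hcover : 𝒰 ⊆ R.toFinset.biUnion fun j =>
      ((Icc T j).filter fun T' => ((k - T'.card : ℕ) : ℝ) < s / D).biUnion
        fun T' => 𝒰.filter (T' ⊆ ·) := by
    intro l hl
    obtain ⟨j, hj, hle, hdj⟩ := hR3 l hl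
    obtain ⟨hvl, hkl, hTl⟩ := h𝒰 l hl
    obtain ⟨hvj, hkj, hTj⟩ := h𝒰 j (hR1 j hj)
    have hfree : ∀ x ∈ l, (κn j).2 x = 0 := by
      intro x hx
      by_cases hxT : x ∈ T
      · exact hzero j (hR1 j hj) x (hTj hxT)
      · by_contra hne
        exact disjoint_left.1 hdj (mem_sdiff.2 ⟨hx, hxT⟩) (mem_filter.2 ⟨mem_univ _, hne⟩)
    obtain ⟨-, hopt⟩ := serve_eq (hκn j (hR1 j hj)) (hκn l hl) (hkj.trans hkl.symm) hle hfree
    have hclose := class_close hg hlam hM hvj hvl (hκn j (hR1 j hj)) hopt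
    rw [hkj] at hclose
    refine mem_biUnion.2 ⟨j, List.mem_toFinset.2 hj, mem_biUnion.2 ⟨j ∩ l,
      mem_filter.2 ⟨mem_Icc.2 ⟨subset_inter hTj hTl, inter_subset_left⟩, ?_⟩,
      mem_filter.2 ⟨hl, inter_subset_right⟩⟩⟩
    have hcard : k - (j ∩ l).card = (j \ l).card := by
      have := card_sdiff_add_card_inter j l; omega
    rw [hcard, lt_div_iff₀ hD0]
    by_contra hc
    rw [not_lt] at hc
    rw [div_le_iff₀ hs0] at hM1
    have h5 := mul_le_mul_of_nonneg_left hM1 (Nat.cast_nonneg (j \ l).card : (0:ℝ) ≤ _)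
    have h6 := mul_lt_mul_of_pos_right hclose hs0
    have h7 := mul_le_mul_of_nonneg_left hc (by positivity : (0:ℝ) ≤ 4 * (k : ℝ))
    nlinarith [h5, h6, h7]
  have hbr : (b : ℝ) ≤ 2 * lam * k * (4 * D * k / s + 1) := by
    simp only [hb]; push_cast
    exact mul_le_mul_of_nonneg_left hM2 (by positivity)
  have hsD : (s : ℝ) / D ≤ s := div_le_self hs0.le hD.le
  have hin : ∀ j ∈ R.toFinset,
      ((((Icc T j).filter fun T' => ((k - T'.card : ℕ) : ℝ) < s / D).biUnion
        fun T' => 𝒰.filter (T' ⊆ ·)).card : ℝ) ≤ 2 ^ s * Real.exp (phi al be k (s / D)) := by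
    intro j hj
    obtain ⟨-, hkj, hTj⟩ := h𝒰 j (hR1 j (List.mem_toFinset.1 hj))
    refine ((Nat.cast_le (α := ℝ)).2 card_biUnion_le).trans ?_
    push_cast
    refine (sum_le_card_nsmul _ _ (Real.exp (phi al be k (s / D))) fun T' hT' => ?_).trans ?_
    · obtain ⟨hIcc, hlt⟩ := mem_filter.1 hT'
      obtain ⟨-, hT'j⟩ := mem_Icc.1 hIcc
      have hT'k : T'.card ≤ k := hkj ▸ card_le_card hT'j
      have hlt' : k - T'.card < s := by exact_mod_cast hlt.trans_le hsD
      refine (ih _ hlt' T' (𝒰.filter (T' ⊆ ·)) (fun U hU => ?_) (by omega)).trans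
        (Real.exp_le_exp.2 (phi_mono hal0 hbe0 (Nat.cast_nonneg _) hlt.le (hsD.trans hsk)))
      obtain ⟨hU1, hU2⟩ := mem_filter.1 hU
      exact ⟨(h𝒰 U hU1).1, (h𝒰 U hU1).2.1, hU2⟩
    · rw [nsmul_eq_mul]
      refine mul_le_mul_of_nonneg_right ?_ (Real.exp_pos _).le
      have h : ((Icc T j).filter fun T' => ((k - T'.card : ℕ) : ℝ) < s / D).card ≤ 2 ^ s := by
        refine (card_filter_le _ _).trans (le_of_eq ?_)
        rw [card_Icc_finset hTj]; congr 1; omega
      exact_mod_cast h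
  calc (𝒰.card : ℝ)
      ≤ ∑ j ∈ R.toFinset, 2 ^ s * Real.exp (phi al be k (s / D)) := by
        refine ((Nat.cast_le (α := ℝ)).2 ((card_le_card hcover).trans card_biUnion_le)).trans ?_
        push_cast
        exact sum_le_sum hin
    _ ≤ ((s + b).choose b : ℝ) * (2 ^ s * Real.exp (phi al be k (s / D))) := by
        rw [sum_const, nsmul_eq_mul]
        refine mul_le_mul_of_nonneg_right ?_ (by positivity)
        exact_mod_cast (List.toFinset_card_le R).trans hlen
    _ ≤ Real.exp (s * (1 + Real.log (1 + (b : ℝ) / s)))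
          * (Real.exp (s * Real.log 2) * Real.exp (phi al be k (s / D))) := by
        refine mul_le_mul (choose_le_exp s b hs) (le_of_eq ?_) (by positivity) (Real.exp_pos _).le
        rw [Real.exp_nat_mul, Real.exp_log (by norm_num : (0 : ℝ) < 2)]
    _ ≤ Real.exp (phi al be k s) := by
        rw [← Real.exp_add, ← Real.exp_add, ← add_assoc]
        exact Real.exp_le_exp.2 (phi_step hD hlr hsr hsk hbe hal (Nat.cast_nonneg b) hbr)

/-- The number of valid sets of each size is at most exponential in the size. -/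
theorem count_valid (hg : ∀ S, 0 ≤ g S) (hlam : 1 ≤ lam) (Z : Finset α) (k : ℕ)
    (𝒰 : Finset (Finset α)) (h𝒰 : ∀ U ∈ 𝒰, Valid g lam v Z U ∧ U.card = k)
    {D al be : ℝ} (hD : 1 < D) (hbe : be = 2 * D / (D - 1))
    (hal : al = D / (D - 1) * (Real.log lam + (1 + Real.log (11 * D) + Real.log 2)
      + be * Real.log D / D)) :
    (𝒰.card : ℝ) ≤ Real.exp (al + be) ^ k := by
  have h := count_aux hg hlam Z k hD hbe hal k ∅ 𝒰
    (fun U hU => ⟨(h𝒰 U hU).1, (h𝒰 U hU).2, empty_subset U⟩) (by simp)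
  refine h.trans (le_of_eq ?_)
  rw [← Real.exp_nat_mul]
  congr 1
  simp [phi]

end Vale.Agent.P034.Dose
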