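import Vale.Agent.P034.Rounds
import Vale.Agent.P034.Dose.Count

/-!
From the count of valid sets to an integral cover: averaged over a random set `W` of density
`p / 2`, the valid sets form a cheap cover.
-/

namespace Vale.Agent.P034.Dose

open Finset

variable {α : Type} [Fintype α] [DecidableEq α]

/-- All valid sets `U` in `W ∪ U`. -/
noncomputable def validFam (g : Finset α → ℝ) (lam : ℕ) (v : ℝ) (W : Finset α) :
    Finset (Finset α) :=
  @Finset.filter _ (fun U => Valid g lam v (W ∪ U) U) (Classical.decPred _) univ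

lemma mem_validFam {g : Finset α → ℝ} {lam : ℕ} {v : ℝ} {W U : Finset α} :
    U ∈ validFam g lam v W ↔ Valid g lam v (W ∪ U) U := by
  simp [validFam]

lemma validFam_covers {g : Finset α → ℝ} {lam : ℕ} {v : ℝ} (hg : ∀ S, 0 ≤ g S)
    (hlam : 1 ≤ lam) (hv : v < 1) {W H : Finset α}
    (hW : fval g lam W (fun _ => 0) < v) (hH : 1 ≤ ∑ S ∈ H.powerset, g S) :
    ∃ U ∈ validFam g lam v W, U ⊆ H := by
  classical
  have hlr : (1 : ℝ) ≤ lam := by exact_mod_cast hlam
  have hgH : Good g lam v (W ∪ H) H := by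
    refine ⟨(1 - v) / (2 * lam * (H.card + 1)), div_pos (by linarith) (by positivity),
      fun s hs => ?_⟩
    have hf : 1 ≤ fval g lam (W ∪ H) s := by
      refine hH.trans ?_
      have h1 : ∀ S ∈ H.powerset,
          g S = g S * Real.exp (-∑ x ∈ S, ew lam (W ∪ H) s x) := by
        intro S hS
        have : ∑ x ∈ S, ew lam (W ∪ H) s x = 0 := by
          refine sum_eq_zero fun x hx => ?_
          have hxH := mem_powerset.1 hS hx
          simp only [ew, if_pos (mem_union_right W hxH)]
          exact (hs x).2.2 fun h => (mem_sdiff.1 h).2 hxH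
        rw [this, neg_zero, Real.exp_zero, mul_one]
      rw [sum_congr rfl h1]
      exact sum_le_sum_of_subset_of_nonneg (subset_univ _)
        fun S _ _ => mul_nonneg (hg S) (Real.exp_pos _).le
    have h2 : 2 * (lam : ℝ) * ((1 - v) / (2 * lam * (H.card + 1))) * H.card ≤ 1 - v := by
      rw [show 2 * (lam : ℝ) * ((1 - v) / (2 * lam * (H.card + 1))) * H.card
          = (1 - v) * (H.card / (H.card + 1)) by field_simp]
      exact mul_le_of_le_one_right (by linarith)
        ((div_le_one (by positivity)).2 (by linarith))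
    have h3 : 0 ≤ (1 - v) / (2 * lam * (H.card + 1)) * ∑ x, s x :=
      mul_nonneg (div_nonneg (by linarith) (by positivity)) (sum_nonneg fun x _ => (hs x).1)
    linarith
  obtain ⟨U, hU, hmin⟩ := exists_min_image
    (H.powerset.filter fun U => Good g lam v (W ∪ U) U) card
    ⟨H, mem_filter.2 ⟨mem_powerset.2 (Subset.refl _), hgH⟩⟩
  obtain ⟨hUH, hUg⟩ := mem_filter.1 hU
  refine ⟨U, mem_validFam.2 ⟨subset_union_right, ?_, hUg, fun P hP hPg => ?_⟩,
    mem_powerset.1 hUH⟩
  · rw [nonempty_iff_ne_empty]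
    rintro rfl
    obtain ⟨τ, -, h⟩ := hUg
    have h0 := h (fun _ => 0) fun x => ⟨le_rfl, by linarith, fun _ => rfl⟩
    simp at h0
    linarith
  · have hsub : (W ∪ U) \ (U \ P) ⊆ W ∪ P := by
      intro x hx
      simp only [mem_sdiff, mem_union] at hx ⊢
      tauto
    have := hmin P (mem_filter.2
      ⟨mem_powerset.2 (hP.subset.trans (mem_powerset.1 hUH)), good_mono hg hsub hPg⟩)
    exact absurd (card_lt_card hP) (not_lt.2 this)

lemma bern_fiber (a : ℝ) {Z U : Finset α} (hU : U ⊆ Z) :
    a ^ U.card * ∑ W ∈ univ.filter (fun W : Finset α => W ∪ U = Z), bern a W = bern a Z := by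
  have himg : univ.filter (fun W : Finset α => W ∪ U = Z)
      = U.powerset.image fun M => (Z \ U) ∪ M := by
    ext W
    simp only [mem_filter, mem_univ, true_and, mem_image, mem_powerset]
    constructor
    · rintro rfl
      refine ⟨W ∩ U, inter_subset_right, ?_⟩
      ext x; simp; tauto
    · rintro ⟨M, hM, rfl⟩
      ext x
      have h1 : x ∈ M → x ∈ U := fun h => hM h
      have h2 : x ∈ U → x ∈ Z := fun h => hU h
      simp; tauto
  have hinj : Set.InjOn (fun M => (Z \ U) ∪ M) (U.powerset : Set (Finset α)) := by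
    intro M hM M' hM' h
    simp only [coe_powerset, Set.mem_preimage, Set.mem_powerset_iff, coe_subset] at hM hM'
    ext x
    have h1 := congrArg (fun s : Finset α => x ∈ s) h
    simp only [mem_union, mem_sdiff] at h1
    constructor <;> intro hx
    · rcases (h1 ▸ Or.inr hx : (x ∈ Z ∧ x ∉ U) ∨ x ∈ M') with h' | h'
      · exact absurd (hM hx) h'.2
      · exact h'
    · rcases (h1.symm ▸ Or.inr hx : (x ∈ Z ∧ x ∉ U) ∨ x ∈ M) with h' | h'
      · exact absurd (hM' hx) h'.2
      · exact h'
  rw [himg, sum_image hinj]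
  have key : ∀ M ∈ U.powerset, bern a ((Z \ U) ∪ M)
      = a ^ (Z \ U).card * (1 - a) ^ (univ \ Z).card
        * (a ^ M.card * (1 - a) ^ (U.card - M.card)) := by
    intro M hM
    have hMU := mem_powerset.1 hM
    have hd : Disjoint (Z \ U) M := disjoint_left.2 fun x hx hx' => (mem_sdiff.1 hx).2 (hMU hx')
    have hc : (univ \ ((Z \ U) ∪ M)).card = (univ \ Z).card + (U.card - M.card) := by
      rw [← card_sdiff_of_subset hMU, ← card_union_of_disjoint
        (disjoint_left.2 fun x hx hx' => (mem_sdiff.1 hx).2 (hU (mem_sdiff.1 hx').1))]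
      congr 1
      ext x
      have h1 : x ∈ M → x ∈ U := fun h => hMU h
      have h2 : x ∈ U → x ∈ Z := fun h => hU h
      simp; tauto
    rw [bern, card_union_of_disjoint hd, hc, pow_add, pow_add]
    ring
  rw [sum_congr rfl key, ← mul_sum, sum_pow_mul_eq_add_pow, add_sub_cancel, one_pow, mul_one,
    ← mul_assoc, ← pow_add, bern]
  congr 2
  rw [add_comm, card_sdiff_add_card_eq_card hU]

lemma cost_average {g : Finset α → ℝ} {lam : ℕ} {v : ℝ} {a r B : ℝ} (ha0 : 0 < a) (ha1 : a ≤ 1)
    (hB : ∀ Z : Finset α,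
      ∑ U ∈ @Finset.filter _ (fun U => Valid g lam v Z U) (Classical.decPred _) univ,
        (r / a) ^ U.card ≤ B) :
    ∑ W : Finset α, bern a W * ∑ U ∈ validFam g lam v W, r ^ U.card ≤ B := by
  classical
  have h1 : ∀ U : Finset α,
      ∑ W : Finset α, (if Valid g lam v (W ∪ U) U then bern a W * r ^ U.card else 0)
        = ∑ Z : Finset α, (if Valid g lam v Z U then bern a Z * (r / a) ^ U.card else 0) := by
    intro U
    rw [← sum_fiberwise (univ : Finset (Finset α)) (fun W => W ∪ U)]
    refine sum_congr rfl fun Z _ => ?_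
    by_cases hv : Valid g lam v Z U
    · rw [if_pos hv]
      have : ∀ W ∈ univ.filter (fun W : Finset α => W ∪ U = Z),
          (if Valid g lam v (W ∪ U) U then bern a W * r ^ U.card else 0)
            = bern a W * r ^ U.card := by
        intro W hW
        rw [(mem_filter.1 hW).2, if_pos hv]
      rw [sum_congr rfl this, ← sum_mul, ← bern_fiber a hv.1, div_pow]
      field_simp
    · rw [if_neg hv]
      refine sum_eq_zero fun W hW => ?_
      rw [(mem_filter.1 hW).2, if_neg hv]
  calc ∑ W : Finset α, bern a W * ∑ U ∈ validFam g lam v W, r ^ U.card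
      = ∑ W : Finset α, ∑ U : Finset α,
          (if Valid g lam v (W ∪ U) U then bern a W * r ^ U.card else 0) := by
        refine sum_congr rfl fun W _ => ?_
        rw [mul_sum, ← sum_filter]
        refine sum_congr ?_ fun _ _ => rfl
        ext U; simp [mem_validFam]
    _ = ∑ U : Finset α, ∑ Z : Finset α,
          (if Valid g lam v Z U then bern a Z * (r / a) ^ U.card else 0) := by
        rw [sum_comm]
        exact sum_congr rfl fun U _ => h1 U
    _ = ∑ Z : Finset α, bern a Z *
          ∑ U ∈ @Finset.filter _ (fun U => Valid g lam v Z U) (Classical.decPred _) univ,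
            (r / a) ^ U.card := by
        rw [sum_comm]
        refine sum_congr rfl fun Z _ => ?_
        rw [mul_sum, ← sum_filter]
    _ ≤ ∑ Z : Finset α, bern a Z * B :=
        sum_le_sum fun Z _ => mul_le_mul_of_nonneg_left (hB Z) (bern_nonneg ha0.le ha1 Z)
    _ = B := by rw [← sum_mul, bern_sum, one_mul]

lemma geo_sum (n : ℕ) : ∑ k ∈ Finset.range n, (1 / 12 : ℝ) ^ (k + 1) ≤ 1 / 11 := by
  have h : ∀ n : ℕ, ∑ k ∈ Finset.range n, (1 / 12 : ℝ) ^ (k + 1) = (1 - (1 / 12) ^ n) / 11 := by
    intro n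
    induction n with
    | zero => simp
    | succ n ih => rw [sum_range_succ, ih]; ring
  rw [h]
  have : (0 : ℝ) ≤ (1 / 12) ^ n := by positivity
  linarith

/-- A fractional cover of cost `1/2` at `p` yields an integral cover of cost `1/2` at
`p / (K * lam ^ (1 + ε))` whenever `exp (-lam) ≤ p / 4`. -/
theorem small_cover (ε : ℝ) (hε : 0 < ε) : ∃ K : ℝ, 1 ≤ K ∧
    ∀ (α : Type) [Fintype α] [DecidableEq α] (F : Set (Finset α)) (g : Finset α → ℝ) (p : ℝ)
      (lam : ℕ), 0 < p → p ≤ 1 → 1 ≤ lam → Real.exp (-(lam : ℝ)) ≤ p / 4 →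
      (∀ S, 0 ≤ g S) → (∀ H ∈ F, 1 ≤ ∑ S ∈ H.powerset, g S) →
      (∑ S : Finset α, g S * p ^ S.card ≤ 1 / 2) →
      ∃ G : Finset (Finset α), (∀ H ∈ F, ∃ S ∈ G, S ⊆ H) ∧
        ∑ S ∈ G, (p / (K * (lam : ℝ) ^ (1 + ε))) ^ S.card ≤ 1 / 2 := by
  classical
  set D : ℝ := 1 + 1 / ε with hDdef
  have hD : 1 < D := by have := div_pos one_pos hε; linarith
  set be : ℝ := 2 * D / (D - 1) with hbe
  have hγ : D / (D - 1) = 1 + ε := by rw [hDdef]; field_simp; ring
  set c : ℝ := (1 + ε) * ((1 + Real.log (11 * D) + Real.log 2) + be * Real.log D / D) + be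
    with hc
  have hc0 : 0 ≤ c := by
    have := Real.log_nonneg hD.le
    have := Real.log_nonneg (show (1 : ℝ) ≤ 11 * D by linarith)
    have := Real.log_nonneg (show (1 : ℝ) ≤ 2 by norm_num)
    have hbe0 : 0 ≤ be := by rw [hbe]; exact div_nonneg (by linarith) (by linarith)
    have := div_nonneg (mul_nonneg hbe0 (Real.log_nonneg hD.le)) (by linarith : (0:ℝ) ≤ D)
    rw [hc]; exact add_nonneg (mul_nonneg (by linarith) (by linarith)) hbe0
  refine ⟨24 * Real.exp c, by linarith [Real.one_le_exp hc0], ?_⟩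
  intro α _ _ F g p lam hp0 hp1 hlam hexp hg hcov hcost
  have hlr : (1 : ℝ) ≤ lam := by exact_mod_cast hlam
  set Γ : ℝ := Real.exp c * (lam : ℝ) ^ (1 + ε) with hΓ
  have hΓ0 : 0 < Γ := mul_pos (Real.exp_pos _) (Real.rpow_pos_of_pos (by linarith) _)
  set a : ℝ := p / 2 with ha
  set r : ℝ := p / (24 * Real.exp c * (lam : ℝ) ^ (1 + ε)) with hr
  have hra : Γ * (r / a) = 1 / 12 := by
    have : (lam : ℝ) ^ (1 + ε) ≠ 0 := (Real.rpow_pos_of_pos (by linarith) _).ne'
    rw [hr, ha, hΓ]; field_simp; ring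
  have hr0 : 0 ≤ r := by
    rw [hr]; have := Real.rpow_pos_of_pos (by linarith : (0 : ℝ) < lam) (1 + ε); positivity
  have hB : ∀ Z : Finset α,
      ∑ U ∈ @Finset.filter _ (fun U => Valid g lam (7 / 8) Z U) (Classical.decPred _) univ,
        (r / a) ^ U.card ≤ 1 / 11 := by
    intro Z
    set 𝒱 : Finset (Finset α) :=
      @Finset.filter _ (fun U => Valid g lam (7 / 8) Z U) (Classical.decPred _) univ with h𝒱
    have hv : ∀ U ∈ 𝒱, Valid g lam (7 / 8) Z U := fun U hU => by simpa [h𝒱] using hU
    refine le_trans ?_ (geo_sum (Fintype.card α))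
    rw [← sum_fiberwise_of_maps_to (g := fun U : Finset α => U.card - 1)
      (t := Finset.range (Fintype.card α)) (fun U hU => by
        have h1 := (hv U hU).2.1.card_pos
        have h2 := card_le_univ U
        simp only [mem_range]; omega)]
    refine sum_le_sum fun k _ => ?_
    set 𝒰 := 𝒱.filter (fun U => U.card - 1 = k) with h𝒰
    have hk : ∀ U ∈ 𝒰, Valid g lam (7 / 8) Z U ∧ U.card = k + 1 := by
      intro U hU
      obtain ⟨h1, h2⟩ := mem_filter.1 hU
      have := (hv U h1).2.1.card_pos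
      exact ⟨hv U h1, by omega⟩
    have hcount := count_valid hg hlam Z (k + 1) 𝒰 hk hD hbe rfl
    have hexp' : Real.exp (D / (D - 1) * (Real.log lam + (1 + Real.log (11 * D) + Real.log 2)
        + be * Real.log D / D) + be) = Γ := by
      rw [hΓ, Real.rpow_def_of_pos (by linarith : (0 : ℝ) < lam), ← Real.exp_add, hγ, hc]
      congr 1; ring
    rw [hexp'] at hcount
    rw [sum_congr rfl fun U hU => by rw [(hk U hU).2], sum_const, nsmul_eq_mul, ← hra, mul_pow]
    exact mul_le_mul_of_nonneg_right hcount (pow_nonneg (div_nonneg hr0 (by linarith)) _)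
  have havg := cost_average (by linarith : (0 : ℝ) < a) (by linarith : a ≤ 1) hB
  have hf : ∑ W : Finset α, bern a W * fval g lam W (fun _ => 0) ≤ 1 / 2 := by
    have hW : ∀ W : Finset α, fval g lam W (fun _ => 0)
        = ∑ S : Finset α, g S * Real.exp (-(lam : ℝ)) ^ (S \ W).card := by
      intro W
      refine sum_congr rfl fun S _ => ?_
      rw [← Real.exp_nat_mul]
      congr 2
      simp only [ew]
      rw [sum_ite, sum_const_zero, zero_add, sum_const, nsmul_eq_mul, filter_notMem_eq_sdiff]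
      ring
    simp only [hW, mul_sum]
    rw [sum_comm]
    refine le_trans (sum_le_sum fun S _ => ?_) hcost
    rw [sum_congr rfl fun W _ => mul_left_comm (bern a W) (g S) _, ← mul_sum,
      bern_mul_pow_sum]
    refine mul_le_mul_of_nonneg_left (pow_le_pow_left₀ ?_ ?_ _) (hg S)
    · exact add_nonneg (by linarith) (mul_nonneg (by linarith) (Real.exp_pos _).le)
    · nlinarith [mul_nonneg (by linarith : (0 : ℝ) ≤ a) (Real.exp_pos (-(lam : ℝ))).le]
  obtain ⟨W, hW⟩ := exists_le_average (by linarith : (0 : ℝ) ≤ a) (by linarith : a ≤ 1)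
    (fun W => fval g lam W (fun _ => 0) + 7 / 4 * ∑ U ∈ validFam g lam (7 / 8) W, r ^ U.card)
    (1 / 2 + 7 / 4 * (1 / 11)) (by
      simp only [mul_add, sum_add_distrib]
      refine add_le_add hf ?_
      simp only [mul_left_comm (bern a _) (7 / 4 : ℝ)]
      rw [← mul_sum]
      exact mul_le_mul_of_nonneg_left havg (by norm_num))
  have hpos : 0 ≤ ∑ U ∈ validFam g lam (7 / 8) W, r ^ U.card :=
    sum_nonneg fun U _ => pow_nonneg hr0 _
  have hfpos : 0 ≤ fval g lam W (fun _ => 0) :=
    sum_nonneg fun S _ => mul_nonneg (hg S) (Real.exp_pos _).le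
  refine ⟨validFam g lam (7 / 8) W, fun H hH => ?_, ?_⟩
  · exact validFam_covers hg hlam (by norm_num) (by linarith) (hcov H hH)
  · linarith

end Vale.Agent.P034.Dose
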