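import Mathlib

/-!
Skew set pairs: if `A i` has size `a`, `B i` size at most `b`, `A i` avoids `B i` and
`A j` meets `B i` for `i < j`, then there are at most `choose (a + b) b` indices.
-/

namespace Vale.Agent.P034.Dose

open Finset Polynomial

variable {a : ℕ}

/-- The monomial function attached to a multiset of indices. -/
noncomputable def monoFun (b : ℕ) (m : Sym (Fin (a + 1)) b) : (Fin (a + 1) → ℝ) → ℝ :=
  fun c => ((m : Multiset (Fin (a + 1))).map c).prod

/-- Span of the monomial functions of degree `b`. -/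
noncomputable def monoSpan (a b : ℕ) : Submodule ℝ ((Fin (a + 1) → ℝ) → ℝ) :=
  Submodule.span ℝ (Set.range (monoFun (a := a) b))

lemma monoSpan_mul_coord {b : ℕ} (l : Fin (a + 1)) {F : (Fin (a + 1) → ℝ) → ℝ}
    (hF : F ∈ monoSpan a b) : (fun c => c l) * F ∈ monoSpan a (b + 1) := by
  have h : monoSpan a b ≤
      (monoSpan a (b + 1)).comap (LinearMap.mulLeft ℝ (fun c : Fin (a + 1) → ℝ => c l)) := by
    refine Submodule.span_le.2 ?_
    rintro _ ⟨m, rfl⟩
    refine Submodule.subset_span ⟨l ::ₛ m, ?_⟩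
    funext c
    simp [monoFun, Sym.coe_cons]
  exact h hF

lemma monoSpan_mul_linear {b : ℕ} (z : Fin (a + 1) → ℝ) {F : (Fin (a + 1) → ℝ) → ℝ}
    (hF : F ∈ monoSpan a b) : (fun c => ∑ l, c l * z l) * F ∈ monoSpan a (b + 1) := by
  have h : (fun c => ∑ l, c l * z l) * F = ∑ l, z l • ((fun c => c l) * F) := by
    funext c
    simp [Finset.sum_apply, Finset.sum_mul]
    exact Finset.sum_congr rfl fun l _ => by ring
  rw [h]
  exact Submodule.sum_mem _ fun l _ => Submodule.smul_mem _ _ (monoSpan_mul_coord l hF)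

lemma monoSpan_one : (1 : (Fin (a + 1) → ℝ) → ℝ) ∈ monoSpan a 0 := by
  refine Submodule.subset_span ⟨Sym.nil, ?_⟩
  funext c
  simp [monoFun]

lemma monoSpan_prod {ι : Type*} [DecidableEq ι] (B : Finset ι)
    (z : ι → Fin (a + 1) → ℝ) (r : ℕ) :
    (fun c => (∏ x ∈ B, ∑ l, c l * z x l) * c (Fin.last a) ^ r) ∈ monoSpan a (B.card + r) := by
  induction B using Finset.induction_on with
  | empty =>
    induction r with
    | zero =>
      simp only [prod_empty, pow_zero, mul_one, card_empty]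
      exact monoSpan_one
    | succ r ih =>
      have h := monoSpan_mul_coord (Fin.last a) ih
      simp only [card_empty, zero_add] at h ⊢
      convert h using 1
      funext c
      simp [pow_succ]
      ring
  | insert x B hx ih =>
    have h := monoSpan_mul_linear (z x) ih
    rw [card_insert_of_notMem hx, Nat.add_right_comm]
    convert h using 1
    funext c
    simp [prod_insert hx, mul_assoc]

theorem skew_bound {α : Type*} [Fintype α] [DecidableEq α] {n a b : ℕ}
    (A B : Fin n → Finset α) (hA : ∀ i, (A i).card = a) (hB : ∀ i, (B i).card ≤ b)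
    (hd : ∀ i, Disjoint (A i) (B i)) (hs : ∀ i j, i < j → ¬ Disjoint (A j) (B i)) :
    n ≤ (a + b).choose b := by
  classical
  set ξ : α → ℝ := fun x => ((Fintype.equivFin α x : ℕ) : ℝ) with hξ
  have ξinj : Function.Injective ξ := by
    intro x y hxy
    have h' : (Fintype.equivFin α x : ℕ) = (Fintype.equivFin α y : ℕ) := Nat.cast_injective hxy
    exact (Fintype.equivFin α).injective (Fin.ext h')
  set P : Fin n → ((Fin (a + 1) → ℝ) → ℝ) := fun i c =>
    (∏ x ∈ B i, ∑ l : Fin (a + 1), c l * ξ x ^ (l : ℕ)) * c (Fin.last a) ^ (b - (B i).card)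
    with hP
  set p : Fin n → ℝ[X] := fun j => ∏ x ∈ A j, (Polynomial.X - Polynomial.C (ξ x)) with hp
  set y : Fin n → Fin (a + 1) → ℝ := fun j l => (p j).coeff l with hy
  have hdeg : ∀ j, (p j).natDegree = a := by
    intro j
    rw [hp, Polynomial.natDegree_prod_of_monic _ _ (fun x _ => monic_X_sub_C _)]
    simp [hA j]
  have hev : ∀ j x, (∑ l : Fin (a + 1), y j l * ξ x ^ (l : ℕ))
      = ∏ z ∈ A j, (ξ x - ξ z) := by
    intro j x
    have h := Polynomial.eval_eq_sum_range' (p := p j) (n := a + 1)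
      (by rw [hdeg j]; omega) (ξ x)
    rw [← Fin.sum_univ_eq_sum_range (fun l => (p j).coeff l * ξ x ^ l)] at h
    rw [← h, hp]
    simp [Polynomial.eval_prod]
  have hlast : ∀ j, y j (Fin.last a) = 1 := by
    intro j
    have h : (p j).Monic := monic_prod_of_monic _ _ fun x _ => monic_X_sub_C _
    have h2 := h.coeff_natDegree
    rw [hdeg j] at h2
    simpa [hy] using h2
  have hne : ∀ i, P i (y i) ≠ 0 := by
    intro i
    simp only [hP, hlast, one_pow, mul_one, hev]
    refine prod_ne_zero_iff.2 fun x hx => prod_ne_zero_iff.2 fun z hz => sub_ne_zero.2 fun h => ?_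
    exact (Finset.disjoint_left.1 (hd i)) hz (by rw [← ξinj h]; exact hx)
  have hzero : ∀ i j, i < j → P i (y j) = 0 := by
    intro i j hij
    obtain ⟨x, hxA, hxB⟩ := Finset.not_disjoint_iff.1 (hs i j hij)
    simp only [hP, hlast, one_pow, mul_one, hev]
    exact prod_eq_zero hxB (prod_eq_zero hxA (sub_self _))
  have hind : LinearIndependent ℝ P := by
    rw [Fintype.linearIndependent_iff]
    intro co hco
    by_contra hc
    push Not at hc
    obtain ⟨i0, hi0⟩ := hc
    obtain ⟨j, hj, hmax⟩ := Finset.exists_max_image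
      (univ.filter fun i => co i ≠ 0) id ⟨i0, by simp [hi0]⟩
    have h := congrFun hco (y j)
    simp only [Finset.sum_apply, Pi.smul_apply, smul_eq_mul, Pi.zero_apply] at h
    rw [Finset.sum_eq_single j] at h
    · exact (mul_ne_zero (mem_filter.1 hj).2 (hne j)) h
    · intro i _ hij
      rcases lt_or_gt_of_ne hij with hlt | hgt
      · rw [hzero i j hlt, mul_zero]
      · have : co i = 0 := by
          by_contra hci
          exact absurd (hmax i (by simp [hci])) (not_le.2 hgt)
        rw [this, zero_mul]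
    · intro hj'; exact absurd (mem_univ j) hj'
  have hspan : Set.range P ≤ (Submodule.span ℝ (Set.range (monoFun (a := a) b)) : Set _) := by
    rintro _ ⟨i, rfl⟩
    have h := monoSpan_prod (a := a) (B i) (fun (x : α) (l : Fin (a + 1)) => ξ x ^ (l : ℕ))
      (b - (B i).card)
    rw [Nat.add_sub_cancel' (hB i)] at h
    exact h
  have h := linearIndependent_le_span' P hind (Set.range (monoFun (a := a) b)) hspan
  have h2 : Fintype.card (Set.range (monoFun (a := a) b)) ≤ (a + b).choose b := by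
    refine (Fintype.card_range_le _).trans ?_
    rw [Sym.card_sym_eq_choose, Fintype.card_fin]
    exact le_of_eq (by congr 1; omega)
  rw [Cardinal.mk_fin] at h
  exact (Nat.cast_le.1 h).trans h2

theorem skew_list_bound {α β : Type*} [Fintype α] [DecidableEq α] {a b : ℕ}
    (R : List β) (A B : β → Finset α) (hA : ∀ i ∈ R, (A i).card = a)
    (hB : ∀ i ∈ R, (B i).card ≤ b) (hd : ∀ i ∈ R, Disjoint (A i) (B i))
    (hs : R.Pairwise fun i j => ¬ Disjoint (A j) (B i)) :
    R.length ≤ (a + b).choose b :=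
  skew_bound (fun i => A (R.get i)) (fun i => B (R.get i)) (fun i => hA _ (R.get_mem i))
    (fun i => hB _ (R.get_mem i)) (fun i => hd _ (R.get_mem i))
    (fun i j hij => (List.pairwise_iff_get.1 hs) i j hij)

theorem exists_served_list {β : Type*} [DecidableEq β] {α : Type*} [DecidableEq α]
    (κ : β → ℝ) (A B : β → Finset α) (𝒰 : Finset β) (hd : ∀ i ∈ 𝒰, Disjoint (A i) (B i)) :
    ∃ R : List β, (∀ i ∈ R, i ∈ 𝒰) ∧ R.Pairwise (fun i j => ¬ Disjoint (A j) (B i)) ∧
      ∀ l ∈ 𝒰, ∃ j ∈ R, κ j ≤ κ l ∧ Disjoint (A l) (B j) := by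
  induction 𝒰 using Finset.strongInduction with
  | _ 𝒰 ih =>
    rcases 𝒰.eq_empty_or_nonempty with h | h
    · exact ⟨[], by simp, List.Pairwise.nil, by simp [h]⟩
    · obtain ⟨j, hj, hmin⟩ := Finset.exists_min_image 𝒰 κ h
      set 𝒰' := 𝒰.filter fun l => ¬ Disjoint (A l) (B j) with h𝒰'
      have hss : 𝒰' ⊂ 𝒰 :=
        Finset.filter_ssubset.2 ⟨j, hj, not_not.2 (hd j hj)⟩
      obtain ⟨R, hR1, hR2, hR3⟩ := ih 𝒰' hss fun i hi => hd i (mem_filter.1 hi).1
      refine ⟨j :: R, ?_, List.pairwise_cons.2 ⟨fun i hi => (mem_filter.1 (hR1 i hi)).2, hR2⟩, ?_⟩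
      · intro i hi
        rcases List.mem_cons.1 hi with rfl | hi
        · exact hj
        · exact (mem_filter.1 (hR1 i hi)).1
      · intro l hl
        by_cases hdl : Disjoint (A l) (B j)
        · exact ⟨j, List.mem_cons_self, hmin l hl, hdl⟩
        · obtain ⟨i, hi, h1, h2⟩ := hR3 l (mem_filter.2 ⟨hl, hdl⟩)
          exact ⟨i, List.mem_cons_of_mem _ hi, h1, h2⟩

theorem choose_le_exp (a b : ℕ) (ha : 1 ≤ a) :
    (((a + b).choose b : ℕ) : ℝ) ≤ Real.exp (a * (1 + Real.log (1 + b / a))) := by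
  have ha' : (0 : ℝ) < a := by exact_mod_cast ha
  have h1 : (((a + b).choose b : ℕ) : ℝ) ≤ ((a : ℝ) + b) ^ a / (a.factorial : ℝ) := by
    have h := Nat.choose_le_pow_div (α := ℝ) a (a + b)
    rw [Nat.choose_symm_add] at h
    push_cast at h
    exact h
  have h2 : (a : ℝ) ^ a / (a.factorial : ℝ) ≤ Real.exp a :=
    Real.pow_div_factorial_le_exp (a : ℝ) ha'.le a
  have h3 : ((a : ℝ) + b) ^ a = (1 + (b : ℝ) / a) ^ a * (a : ℝ) ^ a := by
    rw [← mul_pow]; congr 1; field_simp
  have h4 : (0 : ℝ) < 1 + (b : ℝ) / a := by positivity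
  rw [mul_add, mul_one, Real.exp_add, Real.exp_nat_mul (Real.log _), Real.exp_log h4]
  calc (((a + b).choose b : ℕ) : ℝ) ≤ ((a : ℝ) + b) ^ a / (a.factorial : ℝ) := h1
    _ = (1 + (b : ℝ) / a) ^ a * ((a : ℝ) ^ a / (a.factorial : ℝ)) := by rw [h3]; ring
    _ ≤ (1 + (b : ℝ) / a) ^ a * Real.exp a := mul_le_mul_of_nonneg_left h2 (by positivity)
    _ = Real.exp a * (1 + (b : ℝ) / a) ^ a := mul_comm _ _

end Vale.Agent.P034.Dose
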